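import Mathlib

/-!
# The smooth case: a rank one algebra acting on the boundary

`g` is a finite dimensional inner product space with a bracket `br` and an involution `θ`,
the inner product being `-B(X, θ Y) / B(H, H)` for the Killing form `B`.
-/

open Set Metric Filter Topology MeasureTheory
open scoped RealInnerProductSpace

noncomputable section

namespace Vale.Agent.P207Z.Cen

variable {g : Type*} [NormedAddCommGroup g] [InnerProductSpace ℝ g]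

/-- a Lie bracket with a Cartan involution -/
structure Car (br : g →L[ℝ] g →L[ℝ] g) (θ : g →L[ℝ] g) : Prop where
  anti : ∀ X Y, br X Y = -br Y X
  jac : ∀ Z X Y, br Z (br X Y) = br (br Z X) Y + br X (br Z Y)
  inv : ∀ X, θ (θ X) = X
  aut : ∀ X Y, θ (br X Y) = br (θ X) (θ Y)
  iso : ∀ X Y, ⟪θ X, θ Y⟫ = ⟪X, Y⟫
  adj : ∀ Z X Y, ⟪br Z X, Y⟫ = -⟪X, br (θ Z) Y⟫

/-- rank one: `N` is the sum of the eigenspaces of `br H` with positive eigenvalue -/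
structure Rk (br : g →L[ℝ] g →L[ℝ] g) (θ : g →L[ℝ] g) (a : ℝ) (H : g) (N : Submodule ℝ g) :
    Prop where
  pos : 0 < a
  neg : θ H = -H
  unit : ‖H‖ = 1
  dec : ∀ Z, ∃ (c : ℝ) (M X X' : g), θ M = M ∧ br H M = 0 ∧ X ∈ N ∧ X' ∈ N ∧
    Z = c • H + M + X + θ X'
  mem : ∀ X ∈ N, br H X ∈ N
  low : ∀ X ∈ N, a * ‖X‖ ^ 2 ≤ ⟪br H X, X⟫
  up : ∀ X ∈ N, ⟪br H X, X⟫ ≤ 2 * a * ‖X‖ ^ 2
  orth : ∀ X ∈ N, ∀ X' ∈ N, ⟪X, θ X'⟫ = 0
  ne : N ≠ ⊥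

variable {B : Type*} [TopologicalSpace B] [MeasurableSpace B]

/-- the action by flows; `q ξ` is the stabiliser, `f` the infinitesimal cocycle.  This is a left
action: `fl Z t` moves the stabilisers by `exp (t • br Z)`. -/
structure Act [CompleteSpace g] (br : g →L[ℝ] g →L[ℝ] g) (fl : g → ℝ → B → B)
    (q : B → Submodule ℝ g) (f : B → g →L[ℝ] ℝ) (D : B → B → ℝ) (ν : Measure B) (h : ℝ) :
    Prop where
  zero : ∀ Z ξ, fl Z 0 ξ = ξ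
  add : ∀ Z s t ξ, fl Z (s + t) ξ = fl Z s (fl Z t ξ)
  smul : ∀ (c : ℝ) Z t ξ, fl (c • Z) t ξ = fl Z (c * t) ξ
  cont : ∀ Z, Continuous fun p : ℝ × B => fl Z p.1 p.2
  fix : ∀ ξ, ∀ Z ∈ q ξ, ∀ t, fl Z t ξ = ξ
  fcont : Continuous f
  conj : ∀ Z t ξ, ∀ Y ∈ q ξ, NormedSpace.exp (t • br Z) Y ∈ q (fl Z t ξ) ∧
    f (fl Z t ξ) (NormedSpace.exp (t • br Z) Y) = f ξ Y
  Dcont : ContinuousOn (fun p : B × B => D p.1 p.2) {p | p.1 ≠ p.2}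
  Dle : ∀ ξ η, ξ ≠ η → D ξ η ≤ 0
  coc : ∀ Z ξ η, ξ ≠ η → ∀ t, HasDerivAt (fun s => D (fl Z s ξ) (fl Z s η))
    (-(f (fl Z t ξ) Z + f (fl Z t η) Z)) t
  meas : ∀ Z (t : ℝ) (F : B → ℝ), Continuous F →
    ∫ ξ, F ξ ∂ν = ∫ ξ, F (fl Z t ξ) * Real.exp (-h * ∫ s in (0 : ℝ)..t, f (fl Z s ξ) Z) ∂ν

/-- the two fixed points of `H`: `ξ` attracting, `η` repelling -/
structure Base (br : g →L[ℝ] g →L[ℝ] g) (θ : g →L[ℝ] g) (q : B → Submodule ℝ g)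
    (f : B → g →L[ℝ] ℝ) (H : g) (N : Submodule ℝ g) (ξ η : B) : Prop where
  ne : ξ ≠ η
  memH : H ∈ q ξ
  fH : f ξ H = 1
  memM : ∀ M, θ M = M → br H M = 0 → M ∈ q ξ ∧ f ξ M = 0
  memN : ∀ X ∈ N, X ∈ q ξ ∧ f ξ X = 0
  memH' : H ∈ q η
  memM' : ∀ M, θ M = M → br H M = 0 → M ∈ q η
  memN' : ∀ X ∈ N, θ X ∈ q η

variable {E : Type*} [NormedAddCommGroup E] [InnerProductSpace ℝ E] [FiniteDimensional ℝ E]
  [MeasurableSpace E] [BorelSpace E]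

/-- a chart `e` at `ξ`; `X Z` is the value at `ξ` of the field of `Z`, `ρ` the density of `ν`
at `ξ` -/
structure Cht (fl : g → ℝ → B → B) (q : B → Submodule ℝ g) (ν : Measure B) (ξ : B) (e : E → B)
    (X : g →L[ℝ] E) (ρ : ℝ) : Prop where
  zero : e 0 = ξ
  cont : ContinuousAt e 0
  nhds : ∀ s ∈ 𝓝 (0 : E), e '' s ∈ 𝓝 ξ
  onto : Function.Surjective X
  ker : ∀ Z ∈ q ξ, X Z = 0
  strict : ∃ Ψ : g → E, HasStrictFDerivAt Ψ X 0 ∧ Ψ 0 = 0 ∧ ∀ᶠ Y in 𝓝 0, fl Y 1 ξ = e (Ψ Y)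
  ρpos : 0 < ρ
  dens : ∀ ε > 0, ∃ r > 0, ∀ A ⊆ ball (0 : E) r, IsCompact A →
    ENNReal.ofReal (ρ - ε) * volume A ≤ ν (e '' A) ∧ ν (e '' A) ≤ ENNReal.ofReal (ρ + ε) * volume A

/-- the statement of block (4) -/
def MassBound : Prop :=
  ∀ (g : Type) [NormedAddCommGroup g] [InnerProductSpace ℝ g] [FiniteDimensional ℝ g]
    [CompleteSpace g] (B : Type) [TopologicalSpace B] [T2Space B] [PreconnectedSpace B]
    [MeasurableSpace B] [BorelSpace B] (E : Type) [NormedAddCommGroup E] [InnerProductSpace ℝ E]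
    [FiniteDimensional ℝ E] [MeasurableSpace E] [BorelSpace E]
    (F : Type) [NormedAddCommGroup F] [InnerProductSpace ℝ F]
    [FiniteDimensional ℝ F] [MeasurableSpace F] [BorelSpace F]
    (br : g →L[ℝ] g →L[ℝ] g) (θ : g →L[ℝ] g) (a : ℝ) (H : g) (N : Submodule ℝ g)
    (fl : g → ℝ → B → B) (q : B → Submodule ℝ g) (f : B → g →L[ℝ] ℝ) (D : B → B → ℝ)
    (ν : Measure B) [IsFiniteMeasure ν] (h : ℝ) (ξ η : B) (e e' : E → B) (X X' : g →L[ℝ] E)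
    (ρ ρ' : ℝ) (M A : E →L[ℝ] E),
    Module.finrank ℝ F = Module.finrank ℝ E + 1 →
    Car br θ → Rk br θ a H N → Act br fl q f D ν h → 0 < h → Base br θ q f H N ξ η →
    Cht fl q ν ξ e X ρ → Cht fl q ν η e' X' ρ' →
    (∀ Y ∈ N, ∀ Z ∈ N, ⟪M (X (θ Y)), X' Z⟫ = ⟪H, br (θ Y) Z⟫) →
    |M.det| = Real.exp (-h * D ξ η) * ρ * ρ' →
    (∀ Z ∈ N, A (X' Z) = X' (br H Z)) →
    ν.real univ ^ 2 * (2 ^ Module.finrank ℝ E * |A.det|) ≤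
      (volume : Measure F).toSphere.real univ ^ 2

end Vale.Agent.P207Z.Cen
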