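import Vale.Agent.P207Z.Sant.Main

/-!
# The model inequality and the centring argument
-/

open Set Filter Topology Metric MeasureTheory Module
open scoped RealInnerProductSpace

noncomputable section

namespace Vale.Agent.P207Z.Cen

variable {E : Type*} [NormedAddCommGroup E] [InnerProductSpace ℝ E]
  {B : Type*} [TopologicalSpace B] [MeasurableSpace B]

/-- the flow of the direction `Z` -/
structure Flow (v : B → E) (D : B → B → ℝ) (σ : Measure B) (a h C : ℝ) (Z : E)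
    (φ : ℝ → B → B) : Prop where
  zero : ∀ ξ, φ 0 ξ = ξ
  add : ∀ s t ξ, φ (s + t) ξ = φ s (φ t ξ)
  cont : Continuous fun p : ℝ × B => φ p.1 p.2
  der : ∀ ξ t, ∃ u', HasDerivAt (fun s => ⟪Z, v (φ s ξ)⟫) u' t ∧
    a * (1 - ⟪Z, v (φ t ξ)⟫ ^ 2) ≤ u' ∧ u' ≤ C
  coc : ∀ ξ η, ξ ≠ η → ∀ t, HasDerivAt (fun s => D (φ s ξ) (φ s η))
    (-(⟪Z, v (φ t ξ)⟫ + ⟪Z, v (φ t η)⟫)) t
  meas : ∀ (t : ℝ) (f : B → ℝ), Continuous f →
    ∫ ξ, f ξ ∂σ = ∫ ξ, f (φ t ξ) * Real.exp (-h * ∫ s in (0 : ℝ)..t, ⟪Z, v (φ s ξ)⟫) ∂σ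

variable {v : B → E} {D : B → B → ℝ} {σ : Measure B} {a h C : ℝ} {Z : E} {φ : ℝ → B → B}

theorem Flow.inj (F : Flow v D σ a h C Z φ) (t : ℝ) : Function.Injective (φ t) := fun ξ η he => by
  rw [← F.zero ξ, ← F.zero η, ← neg_add_cancel t, F.add, F.add, he]

theorem abs_inner_le_one {x y : E} (hx : ‖x‖ = 1) (hy : ‖y‖ = 1) : |⟪x, y⟫| ≤ 1 := by
  have := abs_real_inner_le_norm x y
  rwa [hx, hy, one_mul] at this

theorem Flow.mono (F : Flow v D σ a h C Z φ) (ha : 0 < a) (hZ : ‖Z‖ = 1) (hv : ∀ ξ, ‖v ξ‖ = 1)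
    (ξ : B) : Monotone fun s => ⟪Z, v (φ s ξ)⟫ := by
  choose u' h1 h2 _ using F.der ξ
  refine monotone_of_deriv_nonneg (fun t => (h1 t).differentiableAt) fun t => ?_
  rw [(h1 t).deriv]
  have := abs_le.1 (abs_inner_le_one hZ (hv (φ t ξ)))
  exact le_trans (mul_nonneg ha.le (by nlinarith [this.1, this.2])) (h2 t)

theorem Flow.fix (F : Flow v D σ a h C Z φ) (ha : 0 < a) (hv : ∀ ξ, ‖v ξ‖ = 1)
    (hi : Function.Injective v) {η : B} (hη : v η = Z) (t : ℝ) : φ t η = η := by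
  have hZ : ‖Z‖ = 1 := hη ▸ hv η
  have hp : ∀ t, 0 ≤ t → φ t η = η := fun t ht => by
    have h1 := F.mono ha hZ hv η ht
    simp only [F.zero, hη, real_inner_self_eq_norm_sq, hZ, one_pow] at h1
    have h2 := (abs_le.1 (abs_inner_le_one hZ (hv (φ t η)))).2
    exact hi (((inner_eq_one_iff_of_norm_eq_one hZ (hv _)).1 (le_antisymm h2 h1)).symm.trans
      hη.symm)
  rcases le_total 0 t with ht | ht
  · exact hp t ht
  · have := F.add t (-t) η
    rw [add_neg_cancel, F.zero, hp (-t) (by linarith)] at this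
    exact this.symm

/-- the orbits come from the antipode -/
theorem Flow.tendsto_neg (F : Flow v D σ a h C Z φ) (ha : 0 < a) (hZ : ‖Z‖ = 1)
    (hv : ∀ ξ, ‖v ξ‖ = 1) {ξ : B} (hξ : v ξ ≠ Z) :
    Tendsto (fun t => v (φ t ξ)) atBot (𝓝 (-Z)) := by
  choose u' h1 h2 _ using F.der ξ
  set u : ℝ → ℝ := fun s => ⟪Z, v (φ s ξ)⟫ with hu
  have hb : ∀ t, -1 ≤ u t ∧ u t ≤ 1 := fun t => abs_le.1 (abs_inner_le_one hZ (hv (φ t ξ)))
  have h0 : u 0 < 1 := lt_of_le_of_ne (hb 0).2 fun h => hξ (by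
    simp only [hu, F.zero] at h
    exact ((inner_eq_one_iff_of_norm_eq_one hZ (hv _)).1 h).symm)
  set c := a * (1 - u 0) with hc
  have hc0 : 0 < c := mul_pos ha (by linarith)
  have hd : ∀ t, HasDerivAt (fun t => (1 + u t) * Real.exp (-c * t))
      (u' t * Real.exp (-c * t) + (1 + u t) * (Real.exp (-c * t) * -c)) t := fun t => by
    have := ((hasDerivAt_id t).const_mul (-c)).exp
    simp only [id, mul_one] at this
    exact ((h1 t).const_add 1).mul this
  have hm : MonotoneOn (fun t => (1 + u t) * Real.exp (-c * t)) (Iic 0) :=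
    monotoneOn_of_hasDerivWithinAt_nonneg (convex_Iic 0)
      (fun t _ => (hd t).continuousAt.continuousWithinAt) (fun t _ => (hd t).hasDerivWithinAt)
      fun t ht => by
        have h3 : u t ≤ u 0 := F.mono ha hZ hv ξ (mem_Iic.1 (interior_subset ht))
        have h4 : c * (1 + u t) ≤ u' t := by
          refine le_trans ?_ (h2 t)
          have : (1 - u 0) * (1 + u t) ≤ (1 - u t) * (1 + u t) :=
            mul_le_mul_of_nonneg_right (by linarith) (by linarith [(hb t).1])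
          rw [hc]
          nlinarith
        nlinarith [Real.exp_pos (-c * t)]
  have h5 : Tendsto (fun t => 1 + u t) atBot (𝓝 0) := by
    have h6 : Tendsto (fun t => 2 * Real.exp (c * t)) atBot (𝓝 (2 * 0)) :=
      (Real.tendsto_exp_atBot.comp (tendsto_id.const_mul_atBot hc0)).const_mul 2
    rw [mul_zero] at h6
    refine squeeze_zero' (Eventually.of_forall fun t => by linarith [(hb t).1]) ?_ h6
    filter_upwards [eventually_le_atBot 0] with t ht
    have h7 := hm ht self_mem_Iic ht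
    simp only [mul_zero, Real.exp_zero, mul_one] at h7
    have h8 : Real.exp (-c * t) * Real.exp (c * t) = 1 := by rw [← Real.exp_add]; simp
    have h9 := mul_le_mul_of_nonneg_right h7 (Real.exp_pos (c * t)).le
    rw [mul_assoc, h8, mul_one] at h9
    nlinarith [Real.exp_pos (c * t)]
  rw [tendsto_iff_norm_sub_tendsto_zero]
  have h6 : Tendsto (fun t => √(2 * (1 + u t))) atBot (𝓝 (√(2 * 0))) := (h5.const_mul 2).sqrt
  rw [mul_zero, Real.sqrt_zero] at h6
  refine h6.congr fun t => ?_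
  rw [← Real.sqrt_sq (norm_nonneg _), sub_neg_eq_add, norm_add_sq_real, hv, hZ, real_inner_comm]
  congr 1
  ring

/-- the model inequality -/
theorem model (w : B ≃ₜ sphere (0 : E) 1) (ha : 0 < a)
    (hD : ContinuousOn (fun p : B × B => D p.1 p.2) {p | p.1 ≠ p.2})
    (h0 : ∀ ξ η, (w ξ : E) = -(w η : E) → D ξ η = 0) {ξ η : B} (hne : ξ ≠ η)
    (F : Flow (fun ξ => (w ξ : E)) D σ a h C (w η) φ) :
    D ξ η ≤ 0 ∧ Real.exp (-a * D ξ η) * (1 - ⟪(w η : E), (w ξ : E)⟫) ≤ 2 := by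
  have : T2Space B := w.symm.t2Space
  have hv : ∀ ξ, ‖(w ξ : E)‖ = 1 := fun ξ => norm_eq_of_mem_sphere _
  have hi : Function.Injective fun ξ => (w ξ : E) := Subtype.val_injective.comp w.injective
  have hfix := F.fix ha hv hi rfl
  have hlim := F.tendsto_neg ha (hv η) hv (ξ := ξ) fun h => hne (hi h)
  set ζ := w.symm (-w η) with hζ
  have hζw : (w ζ : E) = -(w η : E) := by rw [hζ, w.apply_symm_apply]; rfl
  have hζη : ζ ≠ η := fun h => by
    rw [h] at hζw
    have h1 : ⟪(w η : E), (w η : E)⟫ = -⟪(w η : E), (w η : E)⟫ := by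
      nth_rw 2 [hζw]; rw [inner_neg_right]
    rw [real_inner_self_eq_norm_sq, hv] at h1
    linarith
  have hl2 : Tendsto (fun t => φ t ξ) atBot (𝓝 ζ) := by
    rw [w.isEmbedding.tendsto_nhds_iff, tendsto_subtype_rng, hζw]
    exact hlim
  have hl3 : Tendsto (fun t => D (φ t ξ) η) atBot (𝓝 0) := by
    have h1 := (hD.continuousAt (x := (ζ, η)) (isOpen_ne_fun continuous_fst continuous_snd
      |>.mem_nhds hζη)).tendsto.comp (hl2.prodMk_nhds tendsto_const_nhds)
    rw [h0 ζ η hζw] at h1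
    exact h1
  choose u' h1 h2 _ using F.der ξ
  set u : ℝ → ℝ := fun s => ⟪(w η : E), (w (φ s ξ) : E)⟫ with hu
  have hb : ∀ t, -1 ≤ u t ∧ u t ≤ 1 := fun t => abs_le.1 (abs_inner_le_one (hv η) (hv (φ t ξ)))
  have hd : ∀ t, HasDerivAt (fun s => D (φ s ξ) η) (-(u t + 1)) t := fun t => by
    have := F.coc ξ η hne t
    simpa only [hfix, real_inner_self_eq_norm_sq, hv, one_pow] using this
  have hul : Tendsto u atBot (𝓝 (-1)) := by
    have := (tendsto_const_nhds (x := (w η : E))).inner (𝕜 := ℝ) hlim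
    rwa [inner_neg_right, real_inner_self_eq_norm_sq, hv, one_pow] at this
  constructor
  · have hm : Antitone fun s => D (φ s ξ) η :=
      antitone_of_deriv_nonpos (fun t => (hd t).differentiableAt) fun t => by
        rw [(hd t).deriv]; linarith [(hb t).1]
    have := hm.ge_of_tendsto hl3 0
    simpa only [F.zero] using this
  · have hd2 : ∀ t, HasDerivAt (fun s => Real.exp (-a * D (φ s ξ) η) * (1 - u s))
        (Real.exp (-a * D (φ t ξ) η) * (-a * -(u t + 1)) * (1 - u t) +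
          Real.exp (-a * D (φ t ξ) η) * -u' t) t := fun t =>
      ((hd t).const_mul (-a)).exp.mul ((h1 t).const_sub 1)
    have hm : Antitone fun s => Real.exp (-a * D (φ s ξ) η) * (1 - u s) :=
      antitone_of_deriv_nonpos (fun t => (hd2 t).differentiableAt) fun t => by
        rw [(hd2 t).deriv]
        have := mul_le_mul_of_nonneg_left (h2 t) (Real.exp_pos (-a * D (φ t ξ) η)).le
        nlinarith
    have hl4 : Tendsto (fun s => Real.exp (-a * D (φ s ξ) η) * (1 - u s)) atBot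
        (𝓝 (Real.exp (-a * 0) * (1 - -1))) :=
      ((Real.continuous_exp.tendsto _).comp (hl3.const_mul (-a))).mul (hul.const_sub 1)
    have := hm.ge_of_tendsto hl4 0
    simp only [hu, F.zero, mul_zero, Real.exp_zero] at this
    linarith

theorem Flow.beta_der (F : Flow v D σ a h C Z φ) (hv : Continuous v) (ξ : B) (t : ℝ) :
    HasDerivAt (fun t => ∫ s in (0 : ℝ)..t, ⟪Z, v (φ s ξ)⟫) ⟪Z, v (φ t ξ)⟫ t := by
  have h1 : Continuous fun s => ⟪Z, v (φ s ξ)⟫ :=
    continuous_const.inner (hv.comp (F.cont.comp (Continuous.prodMk_left ξ)))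
  exact (h1.integral_hasStrictDerivAt 0 t).hasDerivAt

theorem Flow.beta_cont (F : Flow v D σ a h C Z φ) (hv : Continuous v) (t : ℝ) :
    Continuous fun ξ => ∫ s in (0 : ℝ)..t, ⟪Z, v (φ s ξ)⟫ :=
  intervalIntegral.continuous_parametric_intervalIntegral_of_continuous'
    (f := fun ξ s => ⟪Z, v (φ s ξ)⟫)
    (continuous_const.inner (hv.comp (F.cont.comp continuous_swap))) 0 t

theorem Flow.D_eq (F : Flow v D σ a h C Z φ) (hv : Continuous v) {ξ η : B} (hne : ξ ≠ η) (t : ℝ) :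
    D (φ t ξ) (φ t η) + (∫ s in (0 : ℝ)..t, ⟪Z, v (φ s ξ)⟫) +
      (∫ s in (0 : ℝ)..t, ⟪Z, v (φ s η)⟫) = D ξ η := by
  have hd : ∀ t, HasDerivAt (fun t => D (φ t ξ) (φ t η) + (∫ s in (0 : ℝ)..t, ⟪Z, v (φ s ξ)⟫) +
      ∫ s in (0 : ℝ)..t, ⟪Z, v (φ s η)⟫) 0 t := fun t =>
    (((F.coc ξ η hne t).add (F.beta_der hv ξ t)).add (F.beta_der hv η t)).congr_deriv (by ring)
  have := is_const_of_deriv_eq_zero (fun t => (hd t).differentiableAt) (fun t => (hd t).deriv) t 0
  simpa only [F.zero, intervalIntegral.integral_same, add_zero] using this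

theorem Flow.exp_le (F : Flow v D σ a h C Z φ) (hc : Continuous v) (hZ : ‖Z‖ = 1)
    (hv : ∀ ξ, ‖v ξ‖ = 1) {κ t : ℝ} (hκ : 0 ≤ κ) (ht : 0 ≤ t) (hκt : κ * t ≤ 1) (ξ : B) :
    Real.exp (κ * ∫ s in (0 : ℝ)..t, ⟪Z, v (φ s ξ)⟫) ≤
      1 + κ * t * ⟪Z, v ξ⟫ + (κ * |C| + κ ^ 2) * t ^ 2 := by
  choose u' h1 _ h3 using F.der ξ
  set β := ∫ s in (0 : ℝ)..t, ⟪Z, v (φ s ξ)⟫ with hβ
  have hb : |β| ≤ t := by
    have := intervalIntegral.norm_integral_le_of_norm_le_const (a := 0) (b := t) (C := 1)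
      (f := fun s => ⟪Z, v (φ s ξ)⟫) fun s _ => abs_inner_le_one hZ (hv _)
    rwa [sub_zero, abs_of_nonneg ht, one_mul] at this
  have hu : ∀ s ∈ Icc 0 t, ⟪Z, v (φ s ξ)⟫ ≤ ⟪Z, v ξ⟫ + |C| * t := fun s hs => by
    have := image_sub_le_mul_sub_of_deriv_le (fun t => (h1 t).differentiableAt)
      (fun t => (h1 t).deriv.trans_le ((h3 t).trans (le_abs_self C))) hs.1
    simp only [F.zero, sub_zero] at this
    linarith [mul_le_mul_of_nonneg_left hs.2 (abs_nonneg C)]
  have hb2 : β ≤ t * (⟪Z, v ξ⟫ + |C| * t) := by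
    have h4 : Continuous fun s => ⟪Z, v (φ s ξ)⟫ :=
      continuous_const.inner (hc.comp (F.cont.comp (Continuous.prodMk_left ξ)))
    have := intervalIntegral.integral_mono_on (μ := volume) ht (h4.intervalIntegrable 0 t)
      (intervalIntegrable_const (c := ⟪Z, v ξ⟫ + |C| * t)) hu
    rwa [intervalIntegral.integral_const, sub_zero, smul_eq_mul] at this
  have h5 : |κ * β| ≤ κ * t := by
    rw [abs_mul, abs_of_nonneg hκ]; exact mul_le_mul_of_nonneg_left hb hκ
  have h6 := (abs_le.1 (Real.abs_exp_sub_one_sub_id_le (h5.trans hκt))).2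
  have h7 : (κ * β) ^ 2 ≤ (κ * t) ^ 2 := by
    rw [← sq_abs]; exact pow_le_pow_left₀ (abs_nonneg _) h5 2
  have h8 := mul_le_mul_of_nonneg_left hb2 hκ
  nlinarith

variable [FiniteDimensional ℝ E] [Nontrivial E] [MeasurableSpace E] [BorelSpace E] [BorelSpace B]

/-- the total mass is at most the mass of the model -/
theorem mass_le (w : B ≃ₜ sphere (0 : E) 1)
    (hσ : MeasurePreserving w σ (volume : Measure E).toSphere) (ha : 0 < a) (hh : 0 < h)
    (hn : h ≤ 2 * finrank ℝ E * a)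
    (hD : ContinuousOn (fun p : B × B => D p.1 p.2) {p | p.1 ≠ p.2})
    (h0 : ∀ ξ η, (w ξ : E) = -(w η : E) → D ξ η = 0)
    (hF : ∀ η, ∃ φ, Flow (fun ξ => (w ξ : E)) D σ a h C (w η) φ) {α : B → ℝ} (hα : Continuous α)
    (hle : ∀ ξ η, ξ ≠ η → D ξ η + α ξ + α η ≤ 0) :
    ∫ ξ, Real.exp (h * α ξ) ∂σ ≤ (volume : Measure E).toSphere.real univ := by
  have : CompactSpace B := w.symm.compactSpace
  have : IsFiniteMeasure σ := ⟨by
    rw [← preimage_univ (f := w), hσ.measure_preimage MeasurableSet.univ.nullMeasurableSet]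
    exact measure_lt_top _ _⟩
  have hint : ∀ f : B → ℝ, Continuous f → Integrable f σ :=
    fun f hf => hf.integrable_of_hasCompactSupport (HasCompactSupport.of_compactSpace f)
  have hintE : ∀ f : B → E, Continuous f → Integrable f σ :=
    fun f hf => hf.integrable_of_hasCompactSupport (HasCompactSupport.of_compactSpace f)
  have hv : ∀ ξ, ‖(w ξ : E)‖ = 1 := fun ξ => norm_eq_of_mem_sphere _
  have hwc : Continuous fun ξ => (w ξ : E) := continuous_subtype_val.comp w.continuous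
  set n := finrank ℝ E with hndef
  have hn0 : (0 : ℝ) < n := by exact_mod_cast finrank_pos
  set κ := h / n with hκ
  have hκ0 : 0 < κ := div_pos hh hn0
  have hκn : (n : ℝ) * κ = h := by rw [hκ]; field_simp
  have hκa : κ ≤ 2 * a := by rw [hκ, div_le_iff₀ hn0]; linarith
  set I := ∫ ξ, Real.exp (h * α ξ) ∂σ with hI
  set S := (volume : Measure E).toSphere.real univ with hS
  let G : Set (B → ℝ) := {α | Continuous α ∧ (∀ ξ η, ξ ≠ η → D ξ η + α ξ + α η ≤ 0) ∧
    ∫ ξ, Real.exp (h * α ξ) ∂σ = I}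
  let Ψ : (B → ℝ) → ℝ := fun α => ∫ ξ, Real.exp ((h + κ) * α ξ) ∂σ
  let b : (B → ℝ) → E := fun α => ∫ ξ, Real.exp ((h + κ) * α ξ) • (w ξ : E) ∂σ
  obtain ⟨kap, hkap⟩ := Sant.sant_sphere E
  have hsant : ∀ α ∈ G, I ^ 2 * Real.exp (-(kap * ‖b α‖ / I) ^ 2) ≤ S ^ 2 := by
    rintro α ⟨h1, h2, h3⟩
    have h4 := hkap (fun x => Real.exp (κ * α (w.symm x))) (by fun_prop)
      (fun _ => Real.exp_pos _) fun x y => by
        obtain ⟨η, rfl⟩ := w.surjective x
        obtain ⟨ξ, rfl⟩ := w.surjective y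
        simp only [w.symm_apply_apply]
        rw [← Real.exp_add]
        by_cases hne : ξ = η
        · rw [hne, real_inner_self_eq_norm_sq, hv]
          nlinarith [Real.exp_pos (κ * α η + κ * α η)]
        obtain ⟨φ, F⟩ := hF η
        obtain ⟨m1, m2⟩ := model w ha hD h0 hne F
        have h5 : Real.exp (κ * α η + κ * α ξ) ≤ Real.exp (-a * D ξ η) ^ 2 := by
          rw [← Real.exp_nat_mul]
          refine Real.exp_le_exp.2 ?_
          push_cast
          nlinarith [mul_le_mul_of_nonneg_left (h2 ξ η hne) hκ0.le]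
        set c := ⟪(w η : E), (w ξ : E)⟫
        set e := Real.exp (-a * D ξ η)
        have he : 0 < e := Real.exp_pos _
        have hc1 : c ≤ 1 := (abs_le.1 (abs_inner_le_one (hv η) (hv ξ))).2
        have h6 : (e * (1 - c)) ^ 2 ≤ 2 ^ 2 :=
          pow_le_pow_left₀ (mul_nonneg he.le (by linarith)) m2 2
        rcases le_total 0 c with hc | hc
        · nlinarith [Real.exp_pos (κ * α η + κ * α ξ)]
        · have h7 := mul_le_mul_of_nonneg_right h5 (neg_nonneg.2 hc)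
          nlinarith [mul_nonneg (sq_nonneg e) (sq_nonneg (1 + c))]
    have e1 := hσ.integral_comp w.measurableEmbedding
      (fun x => Real.exp (κ * α (w.symm x)) ^ n)
    have e2 := hσ.integral_comp w.measurableEmbedding
      (fun x => Real.exp (κ * α (w.symm x)) ^ (n + 1) • (x : E))
    rw [← e1, ← e2] at h4
    simp only [w.symm_apply_apply, ← Real.exp_nat_mul, ← mul_assoc, Nat.cast_succ, add_mul,
      one_mul, hκn] at h4
    rw [h3] at h4
    simpa only [b, add_mul] using h4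
  have hmove : ∀ α ∈ G, ∀ η, ∀ t, 0 ≤ t → κ * t ≤ 1 → ∃ α' ∈ G,
      Ψ α' ≤ Ψ α + κ * t * ⟪(w η : E), b α⟫ + (κ * |C| + κ ^ 2) * t ^ 2 * Ψ α := by
    rintro α ⟨h1, h2, h3⟩ η t ht hκt
    obtain ⟨φ, F⟩ := hF η
    set β : B → ℝ := fun ξ => ∫ s in (0 : ℝ)..t, ⟪(w η : E), (w (φ s ξ) : E)⟫ with hβ
    have hβc : Continuous β := F.beta_cont hwc t
    have hφc : Continuous (φ (-t)) := F.cont.comp (Continuous.prodMk_right (-t))
    have hinv : ∀ ξ, φ (-t) (φ t ξ) = ξ := fun ξ => by rw [← F.add, neg_add_cancel, F.zero]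
    have hinv' : ∀ ξ, φ t (φ (-t) ξ) = ξ := fun ξ => by rw [← F.add, add_neg_cancel, F.zero]
    have hc' : Continuous fun ξ => α (φ (-t) ξ) + β (φ (-t) ξ) := by fun_prop
    refine ⟨fun ξ => α (φ (-t) ξ) + β (φ (-t) ξ), ⟨hc', fun ξ ζ hne => ?_, ?_⟩, ?_⟩
    · have hne' : φ (-t) ξ ≠ φ (-t) ζ := fun h => hne (F.inj _ h)
      have h4 := F.D_eq hwc hne' t
      rw [hinv', hinv'] at h4
      have h5 := h2 _ _ hne'
      simp only [hβ]
      linarith
    · rw [F.meas t _ (by fun_prop), ← h3]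
      refine integral_congr_ae (Eventually.of_forall fun ξ => ?_)
      simp only [hinv]
      rw [← Real.exp_add]
      congr 1
      simp only [hβ]
      ring
    · have hg : Continuous fun ξ => Real.exp ((h + κ) * α ξ) := by fun_prop
      have e1 : ⟪(w η : E), b α⟫ = ∫ ξ, Real.exp ((h + κ) * α ξ) * ⟪(w η : E), (w ξ : E)⟫ ∂σ := by
        simp only [b]
        rw [← integral_inner (hintE (fun ξ => Real.exp ((h + κ) * α ξ) • (w ξ : E)) (hg.smul hwc))]
        simp only [inner_smul_right]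
      have hg2 : Continuous fun ξ => Real.exp ((h + κ) * α ξ) * ⟪(w η : E), (w ξ : E)⟫ :=
        hg.mul (continuous_const.inner hwc)
      have i1 := hint _ hg
      have i2 := (hint _ hg2).const_mul (κ * t)
      have i3 := i1.const_mul ((κ * |C| + κ ^ 2) * t ^ 2)
      have i4 : Integrable (fun ξ => Real.exp ((h + κ) * α ξ) + κ * t *
          (Real.exp ((h + κ) * α ξ) * ⟪(w η : E), (w ξ : E)⟫)) σ := i1.add i2
      simp only [Ψ]
      rw [F.meas t _ (by fun_prop), e1, ← integral_const_mul, ← integral_const_mul,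
        ← integral_add i1 i2, ← integral_add i4 i3]
      refine integral_mono_of_nonneg (Eventually.of_forall fun ξ => by positivity)
        (i4.add i3) (Eventually.of_forall fun ξ => ?_)
      simp only [hinv]
      have h4 := F.exp_le hwc (hv η) hv hκ0.le ht hκt ξ
      have h5 : Real.exp ((h + κ) * (α ξ + β ξ)) * Real.exp (-h * β ξ) =
          Real.exp ((h + κ) * α ξ) * Real.exp (κ * β ξ) := by
        rw [← Real.exp_add, ← Real.exp_add]; congr 1; ring
      have h6 := mul_le_mul_of_nonneg_left h4 (Real.exp_pos ((h + κ) * α ξ)).le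
      simp only [hβ] at h5 ⊢
      linarith
  have hΨ0 : ∀ α, 0 ≤ Ψ α := fun α => integral_nonneg fun ξ => (Real.exp_pos _).le
  have hGne : (Ψ '' G).Nonempty := ⟨_, α, ⟨hα, hle, rfl⟩, rfl⟩
  have hbdd : BddBelow (Ψ '' G) := ⟨0, by rintro _ ⟨α, -, rfl⟩; exact hΨ0 α⟩
  set m := sInf (Ψ '' G) with hm
  have hm0 : 0 ≤ m := le_csInf hGne (by rintro _ ⟨α, -, rfl⟩; exact hΨ0 α)
  set K := (1 + (κ * |C| + κ ^ 2) * (m + 1)) / κ with hK
  have hK0 : 0 < K := by positivity
  have hsmall : ∀ ε, 0 < ε → ε ≤ 1 → κ * ε ≤ 1 → ∃ α ∈ G, ‖b α‖ ≤ K * ε := by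
    intro ε hε hε1 hκε
    obtain ⟨_, ⟨α, hαG, rfl⟩, hlt⟩ := exists_lt_of_csInf_lt hGne
      (show m < m + ε ^ 2 by nlinarith)
    refine ⟨α, hαG, ?_⟩
    by_cases hb : b α = 0
    · rw [hb, norm_zero]; positivity
    have hb0 : 0 < ‖b α‖ := norm_pos_iff.2 hb
    have hz : -(‖b α‖⁻¹ • b α) ∈ sphere (0 : E) 1 := by
      rw [mem_sphere_zero_iff_norm, norm_neg, norm_smul, norm_inv, norm_norm, inv_mul_cancel₀ hb0.ne']
    obtain ⟨α', hα', h1⟩ := hmove α hαG (w.symm ⟨_, hz⟩) ε hε.le hκε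
    have h2 : m ≤ Ψ α' := csInf_le hbdd ⟨α', hα', rfl⟩
    have h3 : ⟪-(‖b α‖⁻¹ • b α), b α⟫ = -‖b α‖ := by
      rw [inner_neg_left, inner_smul_left, real_inner_self_eq_norm_sq]
      simp only [conj_trivial]
      field_simp
    simp only [w.apply_symm_apply, h3] at h1
    have h4 : Ψ α ≤ m + 1 := by nlinarith
    have h5 : (κ * |C| + κ ^ 2) * ε ^ 2 * Ψ α ≤ (κ * |C| + κ ^ 2) * ε ^ 2 * (m + 1) :=
      mul_le_mul_of_nonneg_left h4 (by positivity)
    have h6 : κ * ‖b α‖ * ε ≤ (1 + (κ * |C| + κ ^ 2) * (m + 1)) * ε * ε := by linarith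
    have h7 := le_of_mul_le_mul_right h6 hε
    rw [hK, div_mul_eq_mul_div, le_div_iff₀ hκ0]
    linarith
  have hfin : I ^ 2 ≤ S ^ 2 := by
    have hc : Continuous fun ε : ℝ => I ^ 2 * Real.exp (-(kap * (K * ε) / I) ^ 2) := by fun_prop
    have hl := (hc.tendsto 0).mono_left (nhdsWithin_le_nhds (s := Ioi 0))
    simp only [mul_zero, zero_div, ne_eq, OfNat.ofNat_ne_zero, not_false_eq_true, zero_pow,
      neg_zero, Real.exp_zero, mul_one] at hl
    refine le_of_tendsto hl ?_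
    filter_upwards [Ioo_mem_nhdsGT (lt_min one_pos (inv_pos.2 hκ0))] with ε hε
    obtain ⟨α, hαG, h1⟩ := hsmall ε hε.1 (hε.2.le.trans (min_le_left _ _)) (by
      have := mul_le_mul_of_nonneg_left (hε.2.le.trans (min_le_right _ _)) hκ0.le
      rwa [mul_inv_cancel₀ hκ0.ne'] at this)
    refine le_trans (mul_le_mul_of_nonneg_left (Real.exp_le_exp.2 (neg_le_neg ?_))
      (sq_nonneg I)) (hsant α hαG)
    rw [div_pow, div_pow, mul_pow, mul_pow]
    gcongr
  exact (pow_le_pow_iff_left₀ (integral_nonneg fun ξ => (Real.exp_pos _).le) measureReal_nonneg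
    two_ne_zero).1 hfin

end Vale.Agent.P207Z.Cen
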