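import Vale.Agent.P207Z.Cen.Defs

/-!
# Exponentials of `br Z`, and the algebra of rank one
-/

open Set Metric Filter Topology NormedSpace Asymptotics
open scoped RealInnerProductSpace

noncomputable section

namespace Vale.Agent.P207Z.Cen

variable {g : Type*} [NormedAddCommGroup g] [InnerProductSpace ℝ g]

section exp

variable [CompleteSpace g]

theorem ex_der (T : g →L[ℝ] g) (X : g) (t : ℝ) :
    HasDerivAt (fun s : ℝ => exp (s • T) X) (T (exp (t • T) X)) t := by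
  simpa using (hasDerivAt_exp_smul_const' T t).clm_apply (hasDerivAt_const t X)

omit [CompleteSpace g] in
theorem ex_zero (T : g →L[ℝ] g) (X : g) : exp ((0 : ℝ) • T) X = X := by simp

theorem ex_add (T : g →L[ℝ] g) (s t : ℝ) (X : g) :
    exp ((s + t) • T) X = exp (s • T) (exp (t • T) X) := by
  let _ : NormedAlgebra ℚ (g →L[ℝ] g) := NormedAlgebra.restrictScalars ℚ ℝ _
  rw [add_smul, exp_add_of_commute (((Commute.refl T).smul_left s).smul_right t)]
  rfl

theorem ex_neg (T : g →L[ℝ] g) (t : ℝ) (X : g) : exp ((-t) • T) (exp (t • T) X) = X := by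
  rw [← ex_add, neg_add_cancel, ex_zero]

theorem ex_neg' (T : g →L[ℝ] g) (t : ℝ) (X : g) : exp (t • T) (exp ((-t) • T) X) = X := by
  rw [← ex_add, add_neg_cancel, ex_zero]

theorem ode_eq (T : g →L[ℝ] g) {x : ℝ → g} (hx : ∀ t, HasDerivAt x (T (x t)) t) (t : ℝ) :
    x t = exp (t • T) (x 0) := by
  have h1 : ∀ s, HasDerivAt (fun s : ℝ => exp ((-s) • T) (x s)) 0 s := fun s => by
    have h2 := ((hasDerivAt_exp_smul_const T (-s)).scomp s (hasDerivAt_neg s)).clm_apply (hx s)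
    simpa using h2
  have h3 := is_const_of_deriv_eq_zero (fun s => (h1 s).differentiableAt) (fun s => (h1 s).deriv) t 0
  simp only [neg_zero, ex_zero] at h3
  rw [← h3, ex_neg']

theorem ex_conj {T S : g →L[ℝ] g} (A : g →L[ℝ] g) (h : ∀ X, A (T X) = S (A X)) (t : ℝ) (X : g) :
    A (exp (t • T) X) = exp (t • S) (A X) := by
  have := ode_eq S (x := fun s => A (exp (s • T) X))
    (fun s => by rw [← h]; exact A.hasFDerivAt.comp_hasDerivAt s (ex_der T X s)) t
  rwa [ex_zero] at this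

end exp

variable {br : g →L[ℝ] g →L[ℝ] g} {θ : g →L[ℝ] g} {a : ℝ} {H : g} {N : Submodule ℝ g}

theorem Car.ex_br [CompleteSpace g] (hC : Car br θ) (Z X Y : g) (t : ℝ) :
    exp (t • br Z) (br X Y) = br (exp (t • br Z) X) (exp (t • br Z) Y) := by
  have := ode_eq (br Z) (x := fun s => br (exp (s • br Z) X) (exp (s • br Z) Y)) (fun s => by
    rw [hC.jac]
    exact (br.hasFDerivAt.comp_hasDerivAt s (ex_der (br Z) X s)).clm_apply (ex_der (br Z) Y s)) t
  rw [this, ex_zero, ex_zero]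

theorem Car.ex_θ [CompleteSpace g] (hC : Car br θ) {Y : g} (hY : θ Y = Y) (t : ℝ) (X : g) :
    θ (exp (t • br Y) X) = exp (t • br Y) (θ X) :=
  ex_conj θ (fun X => by rw [hC.aut, hY]) t X

theorem Car.ex_inner [CompleteSpace g] (hC : Car br θ) {Y : g} (hY : θ Y = Y) (t : ℝ) (X W : g) :
    ⟪exp (t • br Y) X, exp (t • br Y) W⟫ = ⟪X, W⟫ := by
  have h1 : ∀ s, HasDerivAt (fun s : ℝ => ⟪exp (s • br Y) X, exp (s • br Y) W⟫) 0 s := fun s => by
    have := (ex_der (br Y) X s).inner ℝ (ex_der (br Y) W s)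
    rwa [hC.adj, hY, add_neg_cancel] at this
  have h3 := is_const_of_deriv_eq_zero (fun s => (h1 s).differentiableAt) (fun s => (h1 s).deriv) t 0
  rwa [ex_zero, ex_zero] at h3

/-- the exponential of an element fixed by `θ`, as an isometry -/
def Car.exI [CompleteSpace g] (hC : Car br θ) {Y : g} (hY : θ Y = Y) (t : ℝ) : g ≃ₗᵢ[ℝ] g :=
  LinearEquiv.isometryOfInner
    { toFun := fun X => exp (t • br Y) X
      map_add' := map_add _
      map_smul' := map_smul _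
      invFun := fun X => exp ((-t) • br Y) X
      left_inv := ex_neg _ t
      right_inv := ex_neg' _ t } (hC.ex_inner hY t)

theorem Car.exI_apply [CompleteSpace g] (hC : Car br θ) {Y : g} (hY : θ Y = Y) (t : ℝ) (X : g) :
    hC.exI hY t X = exp (t • br Y) X := rfl

theorem Car.self (hC : Car br θ) (X : g) : br X X = 0 := by
  have := hC.anti X X
  rw [eq_neg_iff_add_eq_zero, ← two_smul ℝ] at this
  exact (smul_eq_zero.1 this).resolve_left two_ne_zero

theorem Car.swap (hC : Car br θ) (X Y : g) : ⟪θ X, Y⟫ = ⟪X, θ Y⟫ := by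
  rw [← hC.iso X, hC.inv]

theorem Car.norm (hC : Car br θ) (X : g) : ‖θ X‖ = ‖X‖ := by
  rw [norm_eq_sqrt_real_inner, hC.iso, ← norm_eq_sqrt_real_inner]

theorem Car.perp (hC : Car br θ) {X Y : g} (hX : θ X = -X) (hY : θ Y = Y) : ⟪X, Y⟫ = 0 := by
  have := hC.iso X Y
  rw [hX, hY, inner_neg_left] at this
  linarith

theorem Rk.symm (hR : Rk br θ a H N) (hC : Car br θ) (X Y : g) : ⟪br H X, Y⟫ = ⟪X, br H Y⟫ := by
  rw [hC.adj, hR.neg, map_neg, neg_apply, inner_neg_right, neg_neg]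

theorem Rk.br_θ (hR : Rk br θ a H N) (hC : Car br θ) (X : g) : br H (θ X) = -θ (br H X) := by
  rw [hC.aut, hR.neg, map_neg, neg_apply, neg_neg]

theorem Rk.HH (hR : Rk br θ a H N) : ⟪H, H⟫ = 1 := by
  rw [real_inner_self_eq_norm_sq, hR.unit, one_pow]

theorem Rk.eq_zero (hR : Rk br θ a H N) {X : g} (hX : X ∈ N) (h : ⟪br H X, X⟫ = 0) : X = 0 := by
  have := hR.low X hX
  rw [h] at this
  have h2 : ‖X‖ ^ 2 ≤ 0 := by by_contra h3; push Not at h3; nlinarith [mul_pos hR.pos h3]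
  exact norm_eq_zero.1 (pow_eq_zero_iff two_ne_zero |>.1 (le_antisymm h2 (sq_nonneg _)))

theorem Rk.onto [FiniteDimensional ℝ g] (hR : Rk br θ a H N) {X : g} (hX : X ∈ N) :
    ∃ W ∈ N, br H W = X := by
  have hi : Function.Injective ((br H : g →ₗ[ℝ] g).restrict hR.mem) := by
    rw [injective_iff_map_eq_zero]
    intro W hW
    have h1 : br H W = 0 := congrArg Subtype.val hW
    exact Subtype.ext (hR.eq_zero W.2 (by rw [h1, inner_zero_left]))
  obtain ⟨W, hW⟩ := LinearMap.surjective_of_injective hi ⟨X, hX⟩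
  exact ⟨W, W.2, congrArg Subtype.val hW⟩

theorem Rk.perp [FiniteDimensional ℝ g] (hR : Rk br θ a H N) (hC : Car br θ) {X M : g}
    (hX : X ∈ N) (hM : br H M = 0) : ⟪X, M⟫ = 0 := by
  obtain ⟨W, -, rfl⟩ := hR.onto hX
  rw [hR.symm hC, hM, inner_zero_right]

/-- the elements with `θ Z = -Z` -/
theorem Rk.decp (hR : Rk br θ a H N) (hC : Car br θ) {Z : g} (hZ : θ Z = -Z) :
    ∃ (c : ℝ) (X : g), X ∈ N ∧ Z = c • H + (X - θ X) := by
  obtain ⟨c, M, X, X', hM, -, hX, hX', h⟩ := hR.dec Z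
  refine ⟨c, (2 : ℝ)⁻¹ • (X - X'), N.smul_mem _ (N.sub_mem hX hX'), ?_⟩
  have h2 := congrArg θ h
  simp only [map_add, map_smul, hR.neg, hM, hC.inv, hZ] at h2
  rw [map_smul, map_sub]
  linear_combination (norm := module) (2 : ℝ)⁻¹ • h - (2 : ℝ)⁻¹ • h2

theorem Rk.norm_sub (hR : Rk br θ a H N) (hC : Car br θ) {X W : g} (hX : X ∈ N) (hW : W ∈ N) :
    ⟪X - θ X, W - θ W⟫ = 2 * ⟪X, W⟫ := by
  rw [inner_sub_left, inner_sub_right, inner_sub_right, hR.orth X hX W hW, hC.iso, hC.swap,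
    hR.orth X hX W hW]
  ring

theorem Rk.H_sub [FiniteDimensional ℝ g] (hR : Rk br θ a H N) (hC : Car br θ) {X : g}
    (hX : X ∈ N) : ⟪H, X - θ X⟫ = 0 := by
  have h1 : ⟪H, X⟫ = 0 := by rw [real_inner_comm]; exact hR.perp hC hX (hC.self H)
  rw [inner_sub_right, ← hC.swap, hR.neg, inner_neg_left, h1]; ring

/-- the splitting into a part fixed by `θ` and a part in the stabiliser -/
theorem Rk.split [FiniteDimensional ℝ g] (hR : Rk br θ a H N) (hC : Car br θ) (Z : g) :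
    ∃ (c : ℝ) (Y M X : g), θ Y = Y ∧ θ M = M ∧ br H M = 0 ∧ X ∈ N ∧ Z = Y + (c • H + M + X) ∧
      (θ Z = -Z → a * (‖Z‖ ^ 2 - ⟪Z, H⟫ ^ 2) ≤ ⟪Z, br Y H⟫ ∧
        ⟪Z, br Y H⟫ ≤ 2 * a * (‖Z‖ ^ 2 - ⟪Z, H⟫ ^ 2)) := by
  by_cases hZ : θ Z = -Z
  · obtain ⟨c, X, hX, h⟩ := hR.decp hC hZ
    refine ⟨c, -(X + θ X), 0, (2 : ℝ) • X, by rw [map_neg, map_add, hC.inv, add_comm], map_zero _,
      map_zero _, N.smul_mem _ hX, by rw [h]; module, fun _ => ?_⟩
    have h1 : br (-(X + θ X)) H = br H X - θ (br H X) := by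
      rw [hC.anti, map_neg, neg_neg, map_add, hR.br_θ hC, sub_eq_add_neg]
    have h2 := hR.H_sub hC hX
    have h3 : ⟪Z, H⟫ = c := by
      rw [h, inner_add_left, real_inner_smul_left, hR.HH, real_inner_comm, h2]; ring
    have h4 : ‖Z‖ ^ 2 = c ^ 2 + 2 * ‖X‖ ^ 2 := by
      rw [h, norm_add_sq_real, real_inner_smul_left, h2, norm_smul, hR.unit,
        ← real_inner_self_eq_norm_sq (X - θ X), hR.norm_sub hC hX hX, real_inner_self_eq_norm_sq,
        Real.norm_eq_abs, mul_one, sq_abs]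
      ring
    have h5 : ⟪Z, br (-(X + θ X)) H⟫ = 2 * ⟪br H X, X⟫ := by
      rw [h1, h, inner_add_left, real_inner_smul_left, hR.H_sub hC (hR.mem X hX),
        hR.norm_sub hC hX (hR.mem X hX), real_inner_comm]
      ring
    rw [h5, h3, h4]
    constructor <;> nlinarith [hR.low X hX, hR.up X hX]
  · obtain ⟨c, M, X, X', hM, hM', hX, hX', h⟩ := hR.dec Z
    exact ⟨c, X' + θ X', M, X - X', by rw [map_add, hC.inv, add_comm], hM, hM', N.sub_mem hX hX',
      by rw [h]; module, fun h => absurd h hZ⟩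

theorem Rk.coer [FiniteDimensional ℝ g] (hR : Rk br θ a H N) (hC : Car br θ) {M X : g}
    (hM : θ M = M) (hM' : br H M = 0) (hX : X ∈ N) : ‖M + X‖ ≤ ‖M + X + θ (M + X)‖ := by
  have h1 : ⟪M + X, θ (M + X)⟫ = ‖M‖ ^ 2 := by
    rw [map_add, hM, inner_add_left, inner_add_right, inner_add_right, hR.orth X hX X hX,
      ← hC.swap, hM, hR.perp hC hX hM', real_inner_comm X M, hR.perp hC hX hM',
      real_inner_self_eq_norm_sq]
    ring
  refine le_of_sq_le_sq ?_ (norm_nonneg _)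
  rw [norm_add_sq_real (M + X), h1]
  nlinarith [sq_nonneg ‖M‖, sq_nonneg ‖θ (M + X)‖]

end Vale.Agent.P207Z.Cen
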