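import Vale.Agent.P207Z.Cen.Exp

/-!
# The model of the space of elements with `θ Z = -Z`, and the chart of its sphere
-/

open Set Metric Filter Topology NormedSpace MeasureTheory Asymptotics
open scoped RealInnerProductSpace

noncomputable section

namespace Vale.Agent.P207Z.Cen

variable {g : Type*} [NormedAddCommGroup g] [InnerProductSpace ℝ g] [FiniteDimensional ℝ g]
  {E : Type*} [NormedAddCommGroup E] [InnerProductSpace ℝ E] [FiniteDimensional ℝ E]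
  [MeasurableSpace E] [BorelSpace E]
  {F : Type*} [NormedAddCommGroup F] [InnerProductSpace ℝ F] [FiniteDimensional ℝ F]
  [MeasurableSpace F] [BorelSpace F]

/-- coordinates -/
structure Mod (br : g →L[ℝ] g →L[ℝ] g) (θ : g →L[ℝ] g) (H : g) (N : Submodule ℝ g)
    (j : E →L[ℝ] g) (ι : F →L[ℝ] g) (κ : F ≃L[ℝ] ℝ × E) (Λ : E →L[ℝ] E) : Prop where
  mem : ∀ x, j x ∈ N
  onto : ∀ X ∈ N, ∃ x, j x = X
  jin : ∀ x y, 2 * ⟪j x, j y⟫ = ⟪x, y⟫
  ιin : ∀ x y, ⟪ι x, ι y⟫ = ⟪x, y⟫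
  ιeq : ∀ y, ι y = (κ y).1 • H + (j (κ y).2 - θ (j (κ y).2))
  mp : MeasurePreserving κ
  Λeq : ∀ x, j (Λ x) = br H (j x)

variable {br : g →L[ℝ] g →L[ℝ] g} {θ : g →L[ℝ] g} {a : ℝ} {H : g} {N : Submodule ℝ g}
  {j : E →L[ℝ] g} {ι : F →L[ℝ] g} {κ : F ≃L[ℝ] ℝ × E} {Λ : E →L[ℝ] E}

theorem exists_mod (hC : Car br θ) (hR : Rk br θ a H N)
    (h1 : Module.finrank ℝ E = Module.finrank ℝ N)
    (h2 : Module.finrank ℝ F = Module.finrank ℝ E + 1) :
    ∃ (j : E →L[ℝ] g) (ι : F →L[ℝ] g) (κ : F ≃L[ℝ] ℝ × E) (Λ : E →L[ℝ] E),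
      Mod br θ H N j ι κ Λ := by
  let j0 : E ≃ₗᵢ[ℝ] N := (stdOrthonormalBasis ℝ E).equiv (stdOrthonormalBasis ℝ N) (finCongr h1)
  let i : F ≃ₗᵢ[ℝ] WithLp 2 (ℝ × E) :=
    (stdOrthonormalBasis ℝ F).equiv (stdOrthonormalBasis ℝ _) (finCongr (by
      rw [h2, (WithLp.linearEquiv 2 ℝ (ℝ × E)).finrank_eq, Module.finrank_prod,
        Module.finrank_self, add_comm]))
  let κ : F ≃L[ℝ] ℝ × E := i.toContinuousLinearEquiv.trans (WithLp.prodContinuousLinearEquiv 2 ℝ ℝ E)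
  let j : E →L[ℝ] g := (√2)⁻¹ • N.subtypeL ∘L (j0 : E →L[ℝ] N)
  have hj : ∀ x, j x = (√2)⁻¹ • (j0 x : g) := fun x => rfl
  have hs : √2 ≠ 0 := by positivity
  have hm : ∀ x, j x ∈ N := fun x => N.smul_mem _ (j0 x).2
  have hin : ∀ x y, 2 * ⟪j x, j y⟫ = ⟪x, y⟫ := fun x y => by
    rw [hj, hj, real_inner_smul_left, real_inner_smul_right, ← Submodule.coe_inner,
      j0.inner_map_map, ← mul_assoc (√2)⁻¹, ← mul_inv, Real.mul_self_sqrt zero_le_two]
    ring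
  refine ⟨j, ((ContinuousLinearMap.fst ℝ ℝ E).smulRight H +
    (j - θ ∘L j) ∘L ContinuousLinearMap.snd ℝ ℝ E) ∘L (κ : F →L[ℝ] ℝ × E), κ,
    LinearMap.toContinuousLinearMap (j0.symm.toLinearEquiv.toLinearMap ∘ₗ
      (br H : g →ₗ[ℝ] g).restrict hR.mem ∘ₗ j0.toLinearEquiv.toLinearMap),
    hm, fun X hX => ⟨√2 • j0.symm ⟨X, hX⟩, ?_⟩, hin, fun x y => ?_, fun y => rfl,
    (WithLp.volume_preserving_ofLp ℝ E).comp i.measurePreserving, fun x => ?_⟩
  · rw [map_smul, hj, j0.apply_symm_apply, smul_smul, mul_inv_cancel₀ hs, one_smul]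
  · change ⟪(κ x).1 • H + (j (κ x).2 - θ (j (κ x).2)), (κ y).1 • H + (j (κ y).2 - θ (j (κ y).2))⟫ = _
    rw [inner_add_left, inner_add_right, inner_add_right, real_inner_smul_left,
      real_inner_smul_left, real_inner_smul_right, real_inner_smul_right, hR.HH,
      hR.H_sub hC (hm _), real_inner_comm H, hR.H_sub hC (hm _), hR.norm_sub hC (hm _) (hm _), hin,
      ← i.inner_map_map x y, WithLp.prod_inner_apply]
    simp [κ, mul_comm]
  · rw [hj, hj, map_smul]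
    congr 1
    exact congrArg Subtype.val (j0.apply_symm_apply _)

namespace Mod

variable (hM : Mod br θ H N j ι κ Λ)
include hM

omit [FiniteDimensional ℝ g] in
theorem norm (x : F) : ‖ι x‖ = ‖x‖ := by
  rw [norm_eq_sqrt_real_inner, hM.ιin, ← norm_eq_sqrt_real_inner]

omit [FiniteDimensional ℝ g] in
theorem inj : Function.Injective ι := (injective_iff_map_eq_zero ι).2 fun x hx => by
  rw [← norm_eq_zero, ← hM.norm, hx, norm_zero]

omit [FiniteDimensional ℝ g] in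
theorem neg (hC : Car br θ) (hR : Rk br θ a H N) (x : F) : θ (ι x) = -ι x := by
  rw [hM.ιeq, map_add, map_smul, map_sub, hR.neg, hC.inv]; module

omit [FiniteDimensional ℝ g] in
theorem surj (hC : Car br θ) (hR : Rk br θ a H N) {Z : g} (hZ : θ Z = -Z) : ∃ x, ι x = Z := by
  obtain ⟨c, X, hX, h⟩ := hR.decp hC hZ
  obtain ⟨x, rfl⟩ := hM.onto X hX
  exact ⟨κ.symm (c, x), by rw [hM.ιeq, κ.apply_symm_apply, h]⟩

omit [FiniteDimensional ℝ g] in
theorem surj' (hC : Car br θ) (hR : Rk br θ a H N) {Z : g} (hZ : θ Z = -Z) (h1 : ‖Z‖ = 1) :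
    ∃ x : sphere (0 : F) 1, ι x = Z := by
  obtain ⟨x, rfl⟩ := hM.surj hC hR hZ
  exact ⟨⟨x, by rwa [mem_sphere_zero_iff_norm, ← hM.norm]⟩, rfl⟩

omit [FiniteDimensional ℝ g] in
theorem Λinj (hR : Rk br θ a H N) : Function.Injective Λ :=
  (injective_iff_map_eq_zero Λ).2 fun x hx => by
    have h1 := hM.Λeq x
    rw [hx, map_zero] at h1
    have h2 := hM.jin x x
    rw [hR.eq_zero (hM.mem x) (by rw [← h1, inner_zero_left]), inner_zero_left, mul_zero] at h2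
    exact inner_self_eq_zero.1 h2.symm

theorem chart [CompleteSpace g] (hC : Car br θ) (hR : Rk br θ a H N) :
    ∃ P : E → sphere (0 : F) 1, Continuous P ∧
      (∀ x, ι (P x) = exp ((1 : ℝ) • br (j x + θ (j x))) H) ∧
      HasStrictFDerivAt (fun p : ℝ × E => κ (p.1 • (P p.2 : F)))
        ((ContinuousLinearMap.id ℝ ℝ).prodMap (-Λ)) (1, 0) := by
  have hY : ∀ x, θ (j x + θ (j x)) = j x + θ (j x) := fun x => by rw [map_add, hC.inv, add_comm]
  choose P hP using fun x => hM.surj' hC hR (Z := exp ((1 : ℝ) • br (j x + θ (j x))) H)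
    (by rw [hC.ex_θ (hY x), hR.neg, map_neg])
    (by rw [← hC.exI_apply (hY x), LinearIsometryEquiv.norm_map, hR.unit])
  let π : g →L[ℝ] F := ContinuousLinearMap.adjoint ι
  have hπ : ∀ y, π (ι y) = y := fun y => ext_inner_right ℝ fun z => by
    rw [ContinuousLinearMap.adjoint_inner_left, hM.ιin]
  let T : E →L[ℝ] g →L[ℝ] g := br ∘L (j + θ ∘L j)
  have hPe : ∀ x, (P x : F) = π (exp (T x) H) := fun x => by
    rw [← hπ (P x), hP, one_smul]; rfl
  let _ : NormedAlgebra ℚ (g →L[ℝ] g) := NormedAlgebra.restrictScalars ℚ ℝ _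
  refine ⟨P, continuous_induced_rng.2 ?_, hP, ?_⟩
  · rw [show Subtype.val ∘ P = fun x => π (exp (T x) H) from funext hPe]
    exact π.continuous.comp ((exp_continuous.comp T.continuous).clm_apply continuous_const)
  have h1 : HasStrictFDerivAt (fun x => exp (T x)) ((1 : _ →L[ℝ] _) ∘L T) (0 : E) :=
    HasStrictFDerivAt.comp (0 : E) (by rw [map_zero]; exact hasStrictFDerivAt_exp_zero)
      T.hasStrictFDerivAt
  have h2 := ((π ∘L ContinuousLinearMap.apply ℝ g H).hasStrictFDerivAt.comp (0 : E) h1).comp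
    ((1, 0) : ℝ × E) (hasStrictFDerivAt_snd (𝕜 := ℝ))
  have h3 := (κ : F →L[ℝ] ℝ × E).hasStrictFDerivAt.comp ((1, 0) : ℝ × E)
    ((hasStrictFDerivAt_fst (𝕜 := ℝ) (p := ((1, 0) : ℝ × E))).smul h2)
  have h4 : ∀ s x, κ (π (s • H + (j x - θ (j x)))) = (s, x) := fun s x => by
    have := hM.ιeq (κ.symm (s, x))
    rw [κ.apply_symm_apply] at this
    rw [← this, hπ, κ.apply_symm_apply]
  simp only [hPe]
  refine h3.congr_fderiv (ContinuousLinearMap.ext fun p => ?_)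
  have h5 := h4 p.1 (-Λ p.2)
  rw [map_neg, map_neg, hM.Λeq] at h5
  have h6 : T p.2 H = -br H (j p.2) - -θ (br H (j p.2)) := by
    change br (j p.2 + θ (j p.2)) H = _
    rw [hC.anti, map_add, hR.br_θ hC]; abel
  rw [← h6, map_add, map_add, map_smul] at h5
  simpa [add_comm, Prod.map] using h5

omit [FiniteDimensional ℝ g] in
theorem near [CompleteSpace g] (hR : Rk br θ a H N) {P : E → sphere (0 : F) 1}
    (hP : ∀ x, ι (P x) = exp ((1 : ℝ) • br (j x + θ (j x))) H)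
    (hd : HasStrictFDerivAt (fun p : ℝ × E => κ (p.1 • (P p.2 : F)))
      ((ContinuousLinearMap.id ℝ ℝ).prodMap (-Λ)) (1, 0)) :
    ∃ C ε : ℝ, 0 < ε ∧ ∀ v : sphere (0 : F) 1, ‖ι v - H‖ < ε →
      ∃ x, P x = v ∧ ‖x‖ ≤ C * ‖ι v - H‖ := by
  let L : (ℝ × E) ≃L[ℝ] ℝ × E := (LinearEquiv.ofInjectiveEndo
    ((ContinuousLinearMap.id ℝ ℝ).prodMap (-Λ) : ℝ × E →L[ℝ] ℝ × E).toLinearMap
    (Function.injective_id.prodMap (neg_injective.comp (hM.Λinj hR)))).toContinuousLinearEquiv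
  have hd' : HasStrictFDerivAt (fun p : ℝ × E => κ (p.1 • (P p.2 : F))) (L : ℝ × E →L[ℝ] ℝ × E)
    (1, 0) := hd
  have h0 : ι (P 0) = H := by simpa using hP 0
  have h1 := hd'.eventually_right_inverse
  have h2 := hd'.to_localInverse.hasFDerivAt.isBigO_sub
  have h3 := hd'.to_localInverse.continuousAt.fst.eventually
    (lt_mem_nhds (a := (0 : ℝ)) (by beta_reduce; rw [hd'.localInverse_apply_image]; exact one_pos))
  rw [hd'.localInverse_apply_image] at h2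
  obtain ⟨C, hC0, h2⟩ := h2.exists_pos
  simp only [one_smul] at h1 h2 h3
  obtain ⟨ε, hε, h4⟩ := Metric.eventually_nhds_iff.1
    (κ.continuous.continuousAt.eventually (h1.and (h2.bound.and h3)))
  refine ⟨C * ‖(κ : F →L[ℝ] ℝ × E)‖, ε, hε, fun v hv => ?_⟩
  rw [← h0, ← map_sub, hM.norm] at hv ⊢
  obtain ⟨h5, h6, h7⟩ := h4 (by rwa [dist_eq_norm])
  have h8 := κ.injective h5
  have h9 := congrArg Norm.norm h8
  rw [norm_smul, norm_eq_of_mem_sphere, norm_eq_of_mem_sphere, mul_one, Real.norm_of_nonneg h7.le]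
    at h9
  rw [h9, one_smul] at h8
  refine ⟨_, Subtype.ext h8, le_trans ?_ (h6.trans ?_)⟩
  · exact le_trans (by simp) (norm_snd_le _)
  · rw [← map_sub, mul_assoc]
    exact mul_le_mul_of_nonneg_left ((κ : F →L[ℝ] ℝ × E).le_opNorm _) hC0.le

end Mod

end Vale.Agent.P207Z.Cen
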