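import Mathlib

/-!
# The round measure: uniqueness and local density
-/

open Set Metric Filter Topology MeasureTheory
open scoped NNReal ENNReal Pointwise

noncomputable section

namespace Vale.Agent.P207Z.Cen

/-- two uniformly distributed measures on a compact space are proportional -/
theorem uniq_unif {S : Type*} [MetricSpace S] [CompactSpace S] [MeasurableSpace S] [BorelSpace S]
    (μ τ : Measure S) [IsFiniteMeasure μ] [IsFiniteMeasure τ] [τ.IsOpenPosMeasure]
    (hμ : ∀ k : ℝ → ℝ, Continuous k → ∀ x y, ∫ z, k (dist z x) ∂μ = ∫ z, k (dist z y) ∂μ)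
    (hτ : ∀ k : ℝ → ℝ, Continuous k → ∀ x y, ∫ z, k (dist z x) ∂τ = ∫ z, k (dist z y) ∂τ)
    (f : S → ℝ) (hf : Continuous f) :
    τ.real univ * ∫ x, f x ∂μ = μ.real univ * ∫ x, f x ∂τ := by
  rcases isEmpty_or_nonempty S with hS | ⟨⟨x0⟩⟩
  · simp only [integral_of_isEmpty, mul_zero]
  refine eq_of_forall_dist_le fun ε hε => ?_
  obtain ⟨δ, hδ, hd⟩ := Metric.uniformContinuous_iff.1 (CompactSpace.uniformContinuous_of_continuous hf)
    (ε / (μ.real univ * τ.real univ + 1)) (by positivity)
  let k : ℝ → ℝ := fun r => max (δ - r) 0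
  have hk : Continuous k := by fun_prop
  set c1 := ∫ z, k (dist z x0) ∂μ
  set c2 := ∫ z, k (dist z x0) ∂τ
  have hc2 : 0 < c2 := Continuous.integral_pos_of_hasCompactSupport_nonneg_nonzero (x := x0)
    (by fun_prop) (HasCompactSupport.of_compactSpace _) (fun z => le_max_right _ _)
    (by simp [k, hδ.le, hδ.ne'])
  have hint : ∀ F : S × S → ℝ, Continuous F → Integrable F (μ.prod τ) := fun F hF =>
    hF.integrable_of_hasCompactSupport (HasCompactSupport.of_compactSpace F)
  have h1 : ∀ F : S → ℝ, Continuous F →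
      ∫ p, F p.1 * k (dist p.1 p.2) ∂μ.prod τ = c2 * ∫ x, F x ∂μ := fun F hF => by
    rw [integral_prod _ (hint _ (by fun_prop)), ← integral_const_mul]
    refine integral_congr_ae (Eventually.of_forall fun x => ?_)
    simp only [integral_const_mul, dist_comm x, hτ k hk x x0]
    exact mul_comm _ _
  have h2 : ∀ F : S → ℝ, Continuous F →
      ∫ p, F p.2 * k (dist p.1 p.2) ∂μ.prod τ = c1 * ∫ x, F x ∂τ := fun F hF => by
    rw [integral_prod_symm _ (hint _ (by fun_prop)), ← integral_const_mul]
    refine integral_congr_ae (Eventually.of_forall fun x => ?_)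
    simp only [integral_const_mul, hμ k hk x x0]
    exact mul_comm _ _
  have h3 : c2 * μ.real univ = c1 * τ.real univ := by
    have := (h1 (fun _ => 1) continuous_const).symm.trans (h2 (fun _ => 1) continuous_const)
    simpa using this
  set e := ε / (μ.real univ * τ.real univ + 1) with he
  have h4 : |c2 * ∫ x, f x ∂μ - c1 * ∫ x, f x ∂τ| ≤ c2 * (μ.real univ * e) := by
    rw [← h1 f hf, ← h2 f hf, ← integral_sub (hint _ (by fun_prop)) (hint _ (by fun_prop))]
    have h5 := h1 (fun _ => e) continuous_const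
    rw [integral_const, smul_eq_mul] at h5
    rw [← h5]
    refine (abs_integral_le_integral_abs).trans (integral_mono (hint _ (by fun_prop))
      (hint _ (by fun_prop)) fun p => ?_)
    simp only [← sub_mul, abs_mul, abs_of_nonneg (le_max_right (δ - dist p.1 p.2) 0), k]
    rcases lt_or_ge (dist p.1 p.2) δ with h | h
    · exact mul_le_mul_of_nonneg_right (hd h).le (le_max_right _ _)
    · rw [max_eq_right (by linarith), mul_zero, mul_zero]
  have h6 : c2 * |τ.real univ * ∫ x, f x ∂μ - μ.real univ * ∫ x, f x ∂τ| ≤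
      c2 * (μ.real univ * τ.real univ * e) := by
    rw [← abs_of_pos hc2, ← abs_mul, abs_of_pos hc2]
    calc _ = |τ.real univ * (c2 * ∫ x, f x ∂μ - c1 * ∫ x, f x ∂τ)| := by
          congr 1; linear_combination (-∫ x, f x ∂τ) * h3
      _ ≤ τ.real univ * (c2 * (μ.real univ * e)) := by
          rw [abs_mul, abs_of_nonneg measureReal_nonneg]
          exact mul_le_mul_of_nonneg_left h4 measureReal_nonneg
      _ = _ := by ring
  rw [Real.dist_eq]
  refine (le_of_mul_le_mul_left h6 hc2).trans ?_
  rw [he, mul_div_assoc', div_le_iff₀ (by positivity)]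
  nlinarith [mul_nonneg (measureReal_nonneg (μ := μ) (s := univ))
    (measureReal_nonneg (μ := τ) (s := univ))]

variable {F : Type*} [NormedAddCommGroup F] [InnerProductSpace ℝ F] [FiniteDimensional ℝ F]
  [MeasurableSpace F] [BorelSpace F]

theorem toSphere_unif (k : ℝ → ℝ) (x y : sphere (0 : F) 1) :
    ∫ z, k (dist z x) ∂(volume : Measure F).toSphere =
      ∫ z, k (dist z y) ∂(volume : Measure F).toSphere := by
  let R : F ≃ₗᵢ[ℝ] F := Submodule.reflection (ℝ ∙ ((x : F) - y))ᗮ
  have hR : R x = y := Submodule.reflection_sub (by simp)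
  let T : sphere (0 : F) 1 ≃ₜ sphere (0 : F) 1 := R.toHomeomorph.subtype fun v => by simp
  have hT : MeasurePreserving T (volume : Measure F).toSphere (volume : Measure F).toSphere :=
    ⟨T.measurable, Measure.ext fun s hs => by
      rw [Measure.map_apply T.measurable hs, Measure.toSphere_apply' _ hs,
        Measure.toSphere_apply' _ (T.measurable hs),
        ← MeasurePreserving.measure_preimage_equiv (f := R.toMeasurableEquiv) R.measurePreserving
          (Ioo (0 : ℝ) 1 • (Subtype.val '' s))]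
      congr 2
      ext v
      constructor
      · rintro ⟨t, ht, _, ⟨u, hu, rfl⟩, rfl⟩
        exact ⟨t, ht, _, ⟨T u, hu, rfl⟩, (R.map_smul t u).symm⟩
      · rintro ⟨t, ht, _, ⟨u, hu, rfl⟩, hv⟩
        refine ⟨t, ht, _, ⟨T.symm u, by simpa using hu, rfl⟩, R.injective ?_⟩
        have h1 : R (T.symm u : F) = u := congrArg Subtype.val (T.apply_symm_apply u)
        rw [map_smul, h1]
        exact hv⟩
  rw [← hT.integral_comp T.measurableEmbedding fun z => k (dist z y)]
  refine integral_congr_ae (Eventually.of_forall fun z => congrArg k ?_)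
  rw [Subtype.dist_eq, Subtype.dist_eq, ← hR]
  exact (R.dist_map _ _).symm

theorem shell_le {s : Set (sphere (0 : F) 1)} (hs : MeasurableSet s) {r : ℝ} (hr : r < 1) :
    volume (Ioo (1 - r) 1 • (Subtype.val '' s : Set F)) ≤
      (volume : Measure F).toSphere s * ENNReal.ofReal r := by
  let I : Set (Ioi (0 : ℝ)) := Subtype.val ⁻¹' Ioo (1 - r) 1
  have hI : MeasurableSet I := measurable_subtype_coe measurableSet_Ioo
  have h1 := (Measure.measurePreserving_homeomorphUnitSphereProd (volume : Measure F)).measure_preimage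
    (hs.prod hI).nullMeasurableSet
  rw [Measure.prod_prod, comap_subtype_coe_apply (measurableSet_singleton _).compl] at h1
  have h2 : Ioo (1 - r) 1 • (Subtype.val '' s : Set F) ⊆
      Subtype.val '' (homeomorphUnitSphereProd F ⁻¹' s ×ˢ I) := by
    rintro _ ⟨t, ht, _, ⟨u, hu, rfl⟩, rfl⟩
    refine ⟨(homeomorphUnitSphereProd F).symm (u, ⟨t, by simp; linarith [ht.1]⟩), ?_, rfl⟩
    rw [mem_preimage, Homeomorph.apply_symm_apply]
    exact ⟨hu, ht⟩
  refine (measure_mono h2).trans (h1.le.trans (mul_le_mul_right ?_ _))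
  rw [Measure.volumeIoiPow, withDensity_apply _ hI]
  refine (setLIntegral_mono' hI (g := fun _ => 1) fun x hx => ?_).trans ?_
  · exact ENNReal.ofReal_le_one.2 (pow_le_one₀ x.2.out.le hx.2.le)
  · rw [setLIntegral_one, comap_subtype_coe_apply measurableSet_Ioi]
    refine (measure_mono (image_preimage_subset _ _)).trans ?_
    simp

variable {E : Type*} [NormedAddCommGroup E] [InnerProductSpace ℝ E] [FiniteDimensional ℝ E]
  [MeasurableSpace E] [BorelSpace E]

/-- lower bound of the round measure of a small piece -/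
theorem sphere_lower (κ : F ≃L[ℝ] ℝ × E) (hκ : MeasurePreserving κ) {P : E → sphere (0 : F) 1}
    (hP : Continuous P) {L : ℝ × E →L[ℝ] ℝ × E}
    (hL : HasStrictFDerivAt (fun p : ℝ × E => κ (p.1 • (P p.2 : F))) L (1, 0)) {m : ℝ≥0}
    (hm : m < ENNReal.ofReal |L.det|) : ∀ᶠ r in 𝓝[>] (0 : ℝ),
      m * volume (closedBall (0 : E) r) ≤ (volume : Measure F).toSphere (P '' closedBall 0 r) := by
  have : (volume : Measure (ℝ × E)).IsAddHaarMeasure := Measure.prod.instIsAddHaarMeasure _ _
  obtain ⟨δ, hδ, hδ0⟩ :=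
    ((mul_le_addHaar_image_of_lt_det (volume : Measure (ℝ × E)) L hm).and self_mem_nhdsWithin).exists
  obtain ⟨s, hs, ha⟩ := hL.approximates_deriv_on_nhds (c := δ) (Or.inr hδ0)
  obtain ⟨r0, hr0, hsub⟩ := nhds_basis_closedBall.mem_iff.1 hs
  filter_upwards [Ioo_mem_nhdsGT (lt_min hr0 one_pos)] with r hr
  have h1 : Ioo (1 - r) 1 ×ˢ closedBall (0 : E) r ⊆ s := fun p hp => hsub <| by
    rw [← closedBall_prod_same]
    exact ⟨by rw [mem_closedBall, Real.dist_eq, abs_le]; constructor <;>
      linarith [hp.1.1, hp.1.2, hr.2.trans_le (min_le_left _ _)],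
      closedBall_subset_closedBall (hr.2.trans_le (min_le_left _ _)).le hp.2⟩
  have h2 := hδ _ _ (ha.mono_set h1)
  have h3 := shell_le ((isCompact_closedBall (0 : E) r).image hP).measurableSet
    (hr.2.trans_le (min_le_right _ _))
  rw [Measure.volume_eq_prod, Measure.prod_prod, ← Measure.volume_eq_prod,
    ← MeasurePreserving.measure_preimage_equiv (f := κ.toHomeomorph.toMeasurableEquiv) hκ] at h2
  have h4 := h2.trans ((measure_mono ?_).trans h3)
  · rw [Real.volume_Ioo, sub_sub_cancel, mul_comm (ENNReal.ofReal r), ← mul_assoc] at h4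
    exact (ENNReal.mul_le_mul_iff_left (by simpa using hr.1) ENNReal.ofReal_ne_top).1 h4
  · rintro v ⟨p, hp, hv⟩
    exact ⟨p.1, hp.1, _, ⟨_, ⟨p.2, hp.2, rfl⟩, rfl⟩, κ.injective hv⟩

/-- upper bound of the volume of the image of a small ball -/
theorem image_upper {G : E → E} {L : E →L[ℝ] E} (hL : HasStrictFDerivAt G L 0) {m : ℝ≥0}
    (hm : ENNReal.ofReal |L.det| < m) : ∀ᶠ r in 𝓝[>] (0 : ℝ),
      IsCompact (G '' closedBall 0 r) ∧
        volume (G '' closedBall 0 r) ≤ m * volume (closedBall (0 : E) r) := by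
  obtain ⟨δ, hδ, hδ0⟩ :=
    ((addHaar_image_le_mul_of_det_lt (volume : Measure E) L hm).and self_mem_nhdsWithin).exists
  obtain ⟨s, hs, ha⟩ := hL.approximates_deriv_on_nhds (c := δ) (Or.inr hδ0)
  obtain ⟨r0, hr0, hsub⟩ := nhds_basis_closedBall.mem_iff.1 hs
  filter_upwards [Ioo_mem_nhdsGT hr0] with r hr
  have h1 := ha.mono_set ((closedBall_subset_closedBall hr.2.le).trans hsub)
  exact ⟨(isCompact_closedBall _ _).image_of_continuousOn h1.continuousOn, hδ _ _ h1⟩

end Vale.Agent.P207Z.Cen
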